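import Mathlib.Data.Finset.Lattice.Fold
import Mathlib.Data.Finset.Interval
import Mathlib.Order.Interval.Finset.Basic
import Mathlib.Tactic.Push
import Mathlib.Data.Fintype.Powerset
import Mathlib.Algebra.BigOperators.Ring.Finset
import Mathlib.Algebra.Order.BigOperators.Group.Finset
import Mathlib.Data.Fintype.Pi
import Mathlib.Tactic.Linarith
import Mathlib.Tactic.Ring

/-!
# P038: the cut inequality (unweighted)

`N x` is the closed out-neighbourhood of `x`. Feasible pairs `(P, Q)` and legal pairs `(X, Y)` of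
families of sets; the minimal cost of a legal pair is at most the minimal cost of a feasible pair.
-/

namespace Vale.Agent.P038.H456

open Finset

variable {V : Type*} [Fintype V] [DecidableEq V]

/-- The closed out-neighbourhood of a set. -/
def nb (N : V → Finset V) (S : Finset V) : Finset V := S.biUnion N

omit [Fintype V] in
theorem mem_nb {N : V → Finset V} {S : Finset V} {z : V} : z ∈ nb N S ↔ ∃ x ∈ S, z ∈ N x := by
  simp [nb]

omit [Fintype V] in
theorem nb_mono (N : V → Finset V) {S T : Finset V} (h : S ⊆ T) : nb N S ⊆ nb N T :=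
  biUnion_subset_biUnion_of_subset_left N h

omit [Fintype V] in
theorem nb_union (N : V → Finset V) (S T : Finset V) : nb N (S ∪ T) = nb N S ∪ nb N T := by
  ext z
  simp only [mem_nb, mem_union]
  constructor
  · rintro ⟨x, h | h, hz⟩
    · exact Or.inl ⟨x, h, hz⟩
    · exact Or.inr ⟨x, h, hz⟩
  · rintro (⟨x, h, hz⟩ | ⟨x, h, hz⟩)
    · exact ⟨x, Or.inl h, hz⟩
    · exact ⟨x, Or.inr h, hz⟩

/-- `|N[S] ∩ W| - |S|`. -/
def g (N : V → Finset V) (W S : Finset V) : ℤ := ((nb N S ∩ W).card : ℤ) - (S.card : ℤ)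

omit [Fintype V] in
theorem g_submod (N : V → Finset V) (W S T : Finset V) :
    g N W (S ∩ T) + g N W (S ∪ T) ≤ g N W S + g N W T := by
  unfold g
  have h1 := card_union_add_card_inter S T
  have h2 := card_union_add_card_inter (nb N S ∩ W) (nb N T ∩ W)
  have h3 : nb N (S ∪ T) ∩ W = (nb N S ∩ W) ∪ (nb N T ∩ W) := by
    rw [nb_union, union_inter_distrib_right]
  have h4 : (nb N (S ∩ T) ∩ W).card ≤ ((nb N S ∩ W) ∩ (nb N T ∩ W)).card := by
    apply card_le_card
    intro z hz
    simp only [mem_inter] at hz ⊢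
    exact ⟨⟨nb_mono N inter_subset_left hz.1, hz.2⟩, ⟨nb_mono N inter_subset_right hz.1, hz.2⟩⟩
  rw [h3]
  push_cast
  omega

omit [Fintype V] in
theorem g_insert (N : V → Finset V) {W : Finset V} {v : V} (hv : v ∉ W) (S : Finset V) :
    g N (insert v W) S = g N W S + (if v ∈ nb N S then 1 else 0) := by
  unfold g
  by_cases h : v ∈ nb N S
  · rw [if_pos h, inter_insert_of_mem h, card_insert_of_notMem (by simp [hv])]
    push_cast
    ring
  · rw [if_neg h, inter_insert_of_notMem h]
    ring

/-- The minimum of `g` on the interval `[P, R]`. -/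
noncomputable def mu (N : V → Finset V) (W P R : Finset V) : ℤ :=
  if h : (Finset.Icc P R).Nonempty then (Finset.Icc P R).inf' h (g N W) else 0

omit [Fintype V] in
theorem mu_le (N : V → Finset V) {W P R S : Finset V} (h1 : P ⊆ S) (h2 : S ⊆ R) :
    mu N W P R ≤ g N W S := by
  have hm : S ∈ Finset.Icc P R := by simp [h1, h2]
  have h : (Finset.Icc P R).Nonempty := ⟨S, hm⟩
  rw [mu, dif_pos h]
  exact inf'_le _ hm

omit [Fintype V] in
theorem exists_mu (N : V → Finset V) (W : Finset V) {P R : Finset V} (h : P ⊆ R) :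
    ∃ S, P ⊆ S ∧ S ⊆ R ∧ g N W S = mu N W P R := by
  have hn : (Finset.Icc P R).Nonempty := ⟨P, by simp [h]⟩
  obtain ⟨S, hS, e⟩ := exists_mem_eq_inf' hn (g N W)
  rw [mu, dif_pos hn]
  simp only [Finset.mem_Icc, le_eq_subset] at hS
  exact ⟨S, hS.1, hS.2, e.symm⟩

omit [Fintype V] in
theorem mu_insert_ge (N : V → Finset V) {W P R : Finset V} (h : P ⊆ R) {v : V} (hv : v ∉ W) :
    mu N W P R ≤ mu N (insert v W) P R := by
  obtain ⟨S, h1, h2, e⟩ := exists_mu N (insert v W) h
  rw [← e, g_insert N hv]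
  have := mu_le N (W := W) h1 h2
  split_ifs <;> linarith

omit [Fintype V] in
theorem mu_insert_le (N : V → Finset V) {W P R : Finset V} (h : P ⊆ R) {v : V} (hv : v ∉ W) :
    mu N (insert v W) P R ≤ mu N W P R + 1 := by
  obtain ⟨S, h1, h2, e⟩ := exists_mu N W h
  have := mu_le N (W := insert v W) h1 h2
  rw [g_insert N hv] at this
  rw [← e]
  split_ifs at this <;> linarith

omit [Fintype V] in
theorem mu_insert_eq_of_notMem (N : V → Finset V) {W P R : Finset V} (h : P ⊆ R) {v : V}
    (hv : v ∉ W) (hr : v ∉ nb N R) : mu N (insert v W) P R = mu N W P R := by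
  apply le_antisymm _ (mu_insert_ge N h hv)
  obtain ⟨S, h1, h2, e⟩ := exists_mu N W h
  have := mu_le N (W := insert v W) h1 h2
  rw [g_insert N hv, if_neg (fun hh => hr (nb_mono N h2 hh))] at this
  rw [← e]
  linarith

omit [Fintype V] in
theorem mu_insert_of_mem (N : V → Finset V) {W P R : Finset V} (h : P ⊆ R) {v : V}
    (hv : v ∉ W) (hp : v ∈ nb N P) : mu N (insert v W) P R = mu N W P R + 1 := by
  apply le_antisymm (mu_insert_le N h hv)
  obtain ⟨S, h1, h2, e⟩ := exists_mu N (insert v W) h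
  have := mu_le N (W := W) h1 h2
  rw [← e, g_insert N hv, if_pos (nb_mono N h1 hp)]
  linarith

omit [Fintype V] in
/-- If the minimum does not grow there is a minimiser which does not see `v`. -/
theorem exists_of_eq (N : V → Finset V) {W P R : Finset V} (h : P ⊆ R) {v : V}
    (hv : v ∉ W) (he : mu N (insert v W) P R = mu N W P R) :
    ∃ S, P ⊆ S ∧ S ⊆ R ∧ g N W S = mu N W P R ∧ v ∉ nb N S := by
  obtain ⟨S, h1, h2, e⟩ := exists_mu N (insert v W) h
  have h3 := mu_le N (W := W) h1 h2
  rw [g_insert N hv, he] at e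
  refine ⟨S, h1, h2, ?_, ?_⟩
  · split_ifs at e <;> linarith
  · intro h4
    rw [if_pos h4] at e
    linarith

omit [Fintype V] in
/-- Uncrossing: the property `the minimum does not grow` passes to smaller intervals. -/
theorem mu_eq_mono (N : V → Finset V) {W P R X Z : Finset V} (h : P ⊆ R) (hXZ : X ⊆ Z)
    (hX : X ⊆ P) (hZ : Z ⊆ R) {v : V} (hv : v ∉ W)
    (he : mu N (insert v W) P R = mu N W P R) :
    mu N (insert v W) X Z = mu N W X Z := by
  obtain ⟨S, h1, h2, e, h3⟩ := exists_of_eq N h hv he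
  obtain ⟨T, t1, t2, f⟩ := exists_mu N W hXZ
  apply le_antisymm _ (mu_insert_ge N hXZ hv)
  have a1 : X ⊆ T ∩ S := subset_inter t1 (hX.trans h1)
  have a2 : T ∩ S ⊆ Z := inter_subset_left.trans t2
  have b1 : P ⊆ T ∪ S := h1.trans subset_union_right
  have b2 : T ∪ S ⊆ R := union_subset (t2.trans hZ) h2
  have c1 := g_submod N W T S
  have c2 := mu_le N (W := W) b1 b2
  have c3 := mu_le N (W := insert v W) a1 a2
  rw [g_insert N hv, if_neg (fun hh => h3 (nb_mono N inter_subset_right hh))] at c3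
  linarith

/-- The cost `|N[S]| - |S|`. -/
def c (N : V → Finset V) (S : Finset V) : ℤ := ((nb N S).card : ℤ) - (S.card : ℤ)

theorem g_univ (N : V → Finset V) (S : Finset V) : g N univ S = c N S := by
  unfold g c
  rw [inter_univ]

omit [Fintype V] in
theorem c_submod (N : V → Finset V) (S T : Finset V) :
    c N (S ∩ T) + c N (S ∪ T) ≤ c N S + c N T := by
  have h := g_submod N (nb N (S ∪ T)) S T
  have e : ∀ U, U ⊆ S ∪ T → g N (nb N (S ∪ T)) U = c N U := by
    intro U hU
    unfold g c
    rw [inter_eq_left.2 (nb_mono N hU)]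
  rw [e _ (inter_subset_left.trans subset_union_left), e _ subset_rfl, e _ subset_union_left,
    e _ subset_union_right] at h
  exact h

/-- Feasible pairs. -/
def Feas (N : V → Finset V) (P Q : V → Finset V) : Prop :=
  (∀ a, N a ⊆ P a) ∧ (∀ a, N a ⊆ Q a) ∧ ∀ a b, b ∈ P a → a ∈ Q b → a = b

/-- Legal pairs. -/
def Legal (N : V → Finset V) (X Y : V → Finset V) : Prop :=
  (∀ a, a ∈ X a) ∧ (∀ a, a ∈ Y a) ∧ ∀ a b, b ∈ nb N (X a) → a ∈ nb N (Y b) → a = b

/-- The total cost. -/
def E (N : V → Finset V) (P Q : V → Finset V) : ℤ := ∑ a, c N (P a) + ∑ a, c N (Q a)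

/-- The intersection of `P s` over the closed in-neighbours `s` of `a`. -/
def int (N P : V → Finset V) (a : V) : Finset V := univ.filter fun x => ∀ s, a ∈ N s → x ∈ P s

/-- The largest admissible row. -/
def hat (Q : V → Finset V) (s : V) : Finset V := univ.filter fun x => x = s ∨ s ∉ Q x

theorem mem_int {N P : V → Finset V} {a x : V} : x ∈ int N P a ↔ ∀ s, a ∈ N s → x ∈ P s := by
  simp [int]

theorem mem_hat {Q : V → Finset V} {s x : V} : x ∈ hat Q s ↔ x = s ∨ s ∉ Q x := by
  simp [hat]

theorem subset_hat {N P Q : V → Finset V} (h : Feas N P Q) (s : V) : P s ⊆ hat Q s := by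
  intro x hx
  rw [mem_hat]
  by_contra hh
  push Not at hh
  exact hh.1 (h.2.2 s x hx hh.2).symm

/-- Intersecting with critical rows does not increase the cost. -/
theorem inter_le (N : V → Finset V) {P R : V → Finset V}
    (hc : ∀ s S, P s ⊆ S → S ⊆ R s → c N (P s) ≤ c N S) (hPR : ∀ s, P s ⊆ R s) (I : Finset V) :
    ∀ U : Finset V, (∀ s ∈ I, U ⊆ R s) → c N (U.filter fun x => ∀ s ∈ I, x ∈ P s) ≤ c N U := by
  induction I using Finset.induction_on with
  | empty => intro U _; simp
  | insert s I hs ih =>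
    intro U hU
    have h1 : (U.filter fun x => ∀ t ∈ insert s I, x ∈ P t) =
        (U.filter fun x => ∀ t ∈ I, x ∈ P t) ∩ P s := by
      ext x
      simp only [mem_filter, mem_inter, mem_insert, forall_eq_or_imp]
      tauto
    have h2 := ih U fun t ht => hU t (mem_insert_of_mem ht)
    have h3 := c_submod N (U.filter fun x => ∀ t ∈ I, x ∈ P t) (P s)
    have h4 : c N (P s) ≤ c N ((U.filter fun x => ∀ t ∈ I, x ∈ P t) ∪ P s) :=
      hc s _ subset_union_right
        (union_subset ((filter_subset _ _).trans (hU s (mem_insert_self _ _))) (hPR s))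
    rw [h1]
    linarith

theorem int_crit (N : V → Finset V) {P R : V → Finset V}
    (hc : ∀ s S, P s ⊆ S → S ⊆ R s → c N (P s) ≤ c N S) (hPR : ∀ s, P s ⊆ R s) (a : V)
    (S : Finset V) (h1 : int N P a ⊆ S) (h2 : S ⊆ int N R a) : c N (int N P a) ≤ c N S := by
  have h := inter_le N hc hPR (univ.filter fun s => a ∈ N s) S (by
    intro s hs x hx
    exact mem_int.1 (h2 hx) s (mem_filter.1 hs).2)
  have e : (S.filter fun x => ∀ s ∈ univ.filter fun s => a ∈ N s, x ∈ P s) = int N P a := by
    ext x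
    simp only [mem_filter, mem_univ, true_and, mem_int]
    constructor
    · rintro ⟨_, h⟩
      exact h
    · intro h
      exact ⟨h1 (mem_int.2 h), h⟩
  rw [e] at h
  exact h

end Vale.Agent.P038.H456
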