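import Vale.Agent.P038.H456.Shift

/-!
# P038: legal pairs are at most as expensive as feasible pairs
-/

namespace Vale.Agent.P038.H456

open Finset

variable {V : Type*} [Fintype V] [DecidableEq V] {N P Q : V → Finset V}

theorem count3 (f h k : V → Finset V)
    (H : ∀ a x, ((if x ∈ f a then (1 : ℤ) else 0) + (if a ∈ h x then (1 : ℤ) else 0) +
      (if x ∈ k a then (1 : ℤ) else 0)) = 1 + if a = x then 1 else 0) :
    ∑ a, ((f a).card : ℤ) + ∑ x, ((h x).card : ℤ) + ∑ a, ((k a).card : ℤ) =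
      (Fintype.card V : ℤ) * (Fintype.card V : ℤ) + (Fintype.card V : ℤ) := by
  have e : ∀ (f : V → Finset V) (a : V), ((f a).card : ℤ) = ∑ x, if x ∈ f a then (1 : ℤ) else 0 := by
    intro f a
    rw [← sum_filter, filter_mem_eq_inter, univ_inter, card_eq_sum_ones]
    push_cast
    rfl
  have e1 : ∑ x, ((h x).card : ℤ) = ∑ a, ∑ x, if a ∈ h x then (1 : ℤ) else 0 := by
    rw [sum_comm]
    exact sum_congr rfl fun x _ => e h x
  rw [e1, sum_congr rfl fun a _ => e f a, sum_congr rfl fun a _ => e k a, ← sum_add_distrib,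
    ← sum_add_distrib]
  have e2 : ∀ a, (∑ x, (if x ∈ f a then (1 : ℤ) else 0) + ∑ x, (if a ∈ h x then (1 : ℤ) else 0)) +
      ∑ x, (if x ∈ k a then (1 : ℤ) else 0) = (Fintype.card V : ℤ) + 1 := by
    intro a
    rw [← sum_add_distrib, ← sum_add_distrib, sum_congr rfl fun x _ => H a x, sum_add_distrib]
    simp
  rw [sum_congr rfl fun a _ => e2 a, sum_const, card_univ, nsmul_eq_mul]
  ring

theorem count2 (f h : V → Finset V)
    (H : ∀ a x, ((if x ∈ f a then (1 : ℤ) else 0) + (if a ∈ h x then (1 : ℤ) else 0)) =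
      1 + if a = x then 1 else 0) :
    ∑ a, ((f a).card : ℤ) + ∑ x, ((h x).card : ℤ) =
      (Fintype.card V : ℤ) * (Fintype.card V : ℤ) + (Fintype.card V : ℤ) := by
  have := count3 f h (fun _ => ∅) (by
    intro a x
    rw [H a x]
    simp)
  simpa using this

theorem mem_intQ_iff (hN : ∀ x, x ∈ N x) (h : Feas N P Q) (b y : V) :
    y ∈ int N Q b ↔ ¬ (b ∈ nb N (hat Q y) ∧ b ≠ y) := by
  constructor
  · rintro h1 ⟨h2, h3⟩
    obtain ⟨z, hz, hbz⟩ := mem_nb.1 h2
    rcases mem_hat.1 hz with h4 | h4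
    · subst h4
      exact h3 (h.2.2 z b (h.1 z hbz) (mem_int.1 h1 b (hN b))).symm
    · exact h4 (mem_int.1 h1 z hbz)
  · intro h1
    rw [mem_int]
    intro t ht
    by_contra h2
    apply h1
    refine ⟨mem_nb.2 ⟨t, mem_hat.2 (Or.inr h2), ht⟩, ?_⟩
    intro h3
    subst h3
    exact h2 (h.2.1 t ht)

theorem mem_intHat_iff (hN : ∀ x, x ∈ N x) (h : Feas N P Q) (a x : V) :
    x ∈ int N (hat Q) a ↔ ¬ (a ∈ nb N (Q x) ∧ a ≠ x) := by
  constructor
  · rintro h1 ⟨h2, h3⟩
    obtain ⟨s, hs, has⟩ := mem_nb.1 h2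
    rcases mem_hat.1 (mem_int.1 h1 s has) with h4 | h4
    · subst h4
      rcases mem_hat.1 (mem_int.1 h1 a (hN a)) with h5 | h5
      · exact h3 h5.symm
      · exact h5 (h.2.1 x has)
    · exact h4 hs
  · intro h1
    rw [mem_int]
    intro s hs
    rw [mem_hat]
    by_contra h2
    push Not at h2
    apply h1
    refine ⟨mem_nb.2 ⟨s, h2.2, hs⟩, ?_⟩
    intro h3
    subst h3
    exact h2.1 (h.2.2 s a (h.1 s hs) h2.2).symm

/-- The shift inequality: the eroded pair is at most as expensive. -/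
theorem m12 (hN : ∀ x, x ∈ N x) (h : Feas N P Q)
    (hcP : ∀ s S, P s ⊆ S → S ⊆ hat Q s → c N (P s) ≤ c N S)
    (hcQ : ∀ s S, Q s ⊆ S → S ⊆ hat P s → c N (Q s) ≤ c N S) :
    E N (int N P) (int N Q) ≤ E N P Q := by
  have hPR : ∀ s, P s ⊆ hat Q s := subset_hat h
  have hI : ∀ a, int N P a ⊆ int N (hat Q) a := fun a => int_mono hPR a
  have hm := main_ind hN h hcQ univ
  have l1 : ∑ y, (((nb N (hat Q y)).card : ℤ) - (c N (P y) + ((hat Q y).card : ℤ))) ≤
      ∑ y, (((nb N (hat Q y) ∩ univ).card : ℤ) -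
        (mu N univ (P y) (hat Q y) - mu N ∅ (P y) (hat Q y))) := by
    apply sum_le_sum
    intro y _
    have a1 := mu_le N (W := univ) (subset_refl (P y)) (hPR y)
    rw [g_univ] at a1
    obtain ⟨S, s1, s2, s3⟩ := exists_mu N ∅ (hPR y)
    have a2 : g N ∅ S = -(S.card : ℤ) := by
      unfold g
      simp
    have a3 : (S.card : ℤ) ≤ ((hat Q y).card : ℤ) := by exact_mod_cast card_le_card s2
    rw [inter_univ]
    rw [a2] at s3
    linarith
  have l2 : ∑ a, (((univ.filter fun v => v ∉ nb N (int N P a) ∧ a ∉ nb N (int N Q v)).card : ℤ) +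
        ((nb N (int N P a) ∩ univ).card : ℤ) -
        (mu N univ (int N P a) (int N (hat Q) a) - mu N ∅ (int N P a) (int N (hat Q) a))) ≤
      ∑ a, (((univ.filter fun v => v ∉ nb N (int N P a) ∧ a ∉ nb N (int N Q v)).card : ℤ) +
        ((nb N (int N P a)).card : ℤ) - (c N (int N P a) + ((int N (hat Q) a).card : ℤ))) := by
    apply sum_le_sum
    intro a _
    obtain ⟨S, s1, s2, s3⟩ := exists_mu N univ (hI a)
    have a1 := int_crit N hcP hPR a S s1 s2
    rw [g_univ] at s3
    have a2 := mu_le N (W := ∅) (hI a) (subset_refl (int N (hat Q) a))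
    have a3 : g N ∅ (int N (hat Q) a) = -((int N (hat Q) a).card : ℤ) := by
      unfold g
      simp
    rw [inter_univ]
    rw [a3] at a2
    linarith
  have hm2 := (l1.trans hm).trans l2
  simp only [sum_sub_distrib, sum_add_distrib] at hm2
  have c2 := count2 (int N Q) (fun y => nb N (hat Q y)) (by
    intro b y
    by_cases e : b = y
    · subst e
      rw [if_pos ((mem_intQ_iff hN h b b).2 (by simp)), if_pos, if_pos rfl]
      exact mem_nb.2 ⟨b, mem_hat.2 (Or.inl rfl), hN b⟩
    · by_cases e2 : b ∈ nb N (hat Q y)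
      · rw [if_neg (fun hh => (mem_intQ_iff hN h b y).1 hh ⟨e2, e⟩), if_pos e2, if_neg e]
        ring
      · rw [if_pos ((mem_intQ_iff hN h b y).2 (fun hh => e2 hh.1)), if_neg e2, if_neg e])
  have c3 := count2 (int N (hat Q)) (fun x => nb N (Q x)) (by
    intro a x
    by_cases e : a = x
    · subst e
      rw [if_pos ((mem_intHat_iff hN h a a).2 (by simp)), if_pos, if_pos rfl]
      exact mem_nb.2 ⟨a, h.2.1 a (hN a), hN a⟩
    · by_cases e2 : a ∈ nb N (Q x)
      · rw [if_neg (fun hh => (mem_intHat_iff hN h a x).1 hh ⟨e2, e⟩), if_pos e2, if_neg e]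
        ring
      · rw [if_pos ((mem_intHat_iff hN h a x).2 (fun hh => e2 hh.1)), if_neg e2, if_neg e])
  have c4 := count2 (hat Q) Q (by
    intro y x
    by_cases e : y = x
    · subst e
      rw [if_pos (mem_hat.2 (Or.inl rfl)), if_pos (h.2.1 y (hN y)), if_pos rfl]
    · by_cases e2 : y ∈ Q x
      · rw [if_neg, if_pos e2, if_neg e]
        · ring
        · intro hh
          rcases mem_hat.1 hh with h4 | h4
          · exact e h4.symm
          · exact h4 e2
      · rw [if_pos (mem_hat.2 (Or.inr e2)), if_neg e2, if_neg e])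
  have hL := legal_int hN h
  have c5 := count3 (fun a => nb N (int N P a)) (fun v => nb N (int N Q v))
    (fun a => univ.filter fun v => v ∉ nb N (int N P a) ∧ a ∉ nb N (int N Q v)) (by
    intro a v
    by_cases e : a = v
    · subst e
      have b1 : a ∈ nb N (int N P a) := mem_nb.2 ⟨a, hL.1 a, hN a⟩
      have b2 : a ∈ nb N (int N Q a) := mem_nb.2 ⟨a, hL.2.1 a, hN a⟩
      rw [if_pos b1, if_pos b2, if_neg, if_pos rfl]
      · ring
      · intro hh
        exact (mem_filter.1 hh).2.1 b1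
    · by_cases e1 : v ∈ nb N (int N P a)
      · have e2 : a ∉ nb N (int N Q v) := fun hh => e (hL.2.2 a v e1 hh)
        rw [if_pos e1, if_neg e2, if_neg, if_neg e]
        · ring
        · intro hh
          exact (mem_filter.1 hh).2.1 e1
      · by_cases e2 : a ∈ nb N (int N Q v)
        · rw [if_neg e1, if_pos e2, if_neg, if_neg e]
          · ring
          · intro hh
            exact (mem_filter.1 hh).2.2 e2
        · rw [if_neg e1, if_neg e2, if_pos, if_neg e]
          · ring
          · exact mem_filter.2 ⟨mem_univ _, e1, e2⟩)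
  unfold E
  have d : ∀ F : V → Finset V, ∑ a, c N (F a) = ∑ a, ((nb N (F a)).card : ℤ) -
      ∑ a, ((F a).card : ℤ) := by
    intro F
    unfold c
    rw [sum_sub_distrib]
  rw [d, d, d, d]
  rw [d, d] at hm2
  linarith

end Vale.Agent.P038.H456
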