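import Vale.Agent.P038.H456.Cut

/-!
# P038: the cut inequality, the main induction
-/

namespace Vale.Agent.P038.H456

open Finset

variable {V : Type*} [Fintype V] [DecidableEq V] {N P Q : V → Finset V}

theorem legal_int (hN : ∀ x, x ∈ N x) (h : Feas N P Q) : Legal N (int N P) (int N Q) := by
  refine ⟨fun a => mem_int.2 fun s hs => h.1 s hs, fun a => mem_int.2 fun s hs => h.2.1 s hs, ?_⟩
  intro a b hb ha
  obtain ⟨x, hx, hbx⟩ := mem_nb.1 hb
  obtain ⟨y, hy, hay⟩ := mem_nb.1 ha
  have h1 : x ∈ P y := mem_int.1 hx y hay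
  have h2 : y ∈ Q x := mem_int.1 hy x hbx
  have h3 : y = x := h.2.2 y x h1 h2
  subst h3
  have h4 : a = y := h.2.2 a y (mem_int.1 hx a (hN a)) (h.2.1 y hay)
  have h5 : y = b := h.2.2 y b (h.1 y hbx) (mem_int.1 hy b (hN b))
  exact h4.trans h5

theorem incl (hN : ∀ x, x ∈ N x) (h : Feas N P Q) {a v : V} (h1 : v ∈ nb N (int N (hat Q) a))
    (h2 : v ∉ nb N (int N P a)) : a ∉ nb N (int N Q v) := by
  intro h3
  obtain ⟨x, hx, hvx⟩ := mem_nb.1 h1
  obtain ⟨y, hy, hay⟩ := mem_nb.1 h3
  have h4 : y ∈ Q x := mem_int.1 hy x hvx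
  have h5 : x = y := by
    rcases mem_hat.1 (mem_int.1 hx y hay) with h6 | h6
    · exact h6
    · exact absurd h4 h6
  subst h5
  rcases mem_hat.1 (mem_int.1 hx a (hN a)) with h6 | h6
  · subst h6
    exact h2 (mem_nb.2 ⟨x, (legal_int hN h).1 x, hvx⟩)
  · exact h6 (h.2.1 x hay)

theorem int_mono {N P R : V → Finset V} (h : ∀ s, P s ⊆ R s) (a : V) :
    int N P a ⊆ int N R a := fun _ hx => mem_int.2 fun s hs => h s (mem_int.1 hx s hs)

theorem Feas.symm (h : Feas N P Q) : Feas N Q P :=
  ⟨h.2.1, h.1, fun a b h1 h2 => (h.2.2 b a h2 h1).symm⟩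

/-- One step of the main induction. -/
theorem step (hN : ∀ x, x ∈ N x) (h : Feas N P Q)
    (hcQ : ∀ s S, Q s ⊆ S → S ⊆ hat P s → c N (Q s) ≤ c N S) {W : Finset V} {v : V}
    (hv : v ∉ W) :
    ∑ y, ((if v ∈ nb N (hat Q y) then (1 : ℤ) else 0) -
        (mu N (insert v W) (P y) (hat Q y) - mu N W (P y) (hat Q y))) ≤
      ∑ a, ((if v ∉ nb N (int N P a) ∧ a ∉ nb N (int N Q v) then (1 : ℤ) else 0) +
        (if v ∈ nb N (int N P a) then (1 : ℤ) else 0) -
        (mu N (insert v W) (int N P a) (int N (hat Q) a) -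
          mu N W (int N P a) (int N (hat Q) a))) := by
  set K : Finset V := univ.filter fun y => v ∈ nb N (hat Q y) ∧
    mu N (insert v W) (P y) (hat Q y) = mu N W (P y) (hat Q y) with hK
  set K2 : Finset V := univ.filter fun a => (v ∉ nb N (int N P a) ∧ a ∉ nb N (int N Q v)) ∧
    mu N (insert v W) (int N P a) (int N (hat Q) a) = mu N W (int N P a) (int N (hat Q) a)
    with hK2
  have hPR : ∀ s, P s ⊆ hat Q s := subset_hat h
  have hI : ∀ a, int N P a ⊆ int N (hat Q) a := fun a => int_mono hPR a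
  have e1 : ∑ y, ((if v ∈ nb N (hat Q y) then (1 : ℤ) else 0) -
        (mu N (insert v W) (P y) (hat Q y) - mu N W (P y) (hat Q y))) ≤ (K.card : ℤ) := by
    rw [card_eq_sum_ones, hK, sum_filter]
    push_cast
    apply sum_le_sum
    intro y _
    have h1 := mu_insert_ge N (hPR y) hv
    have h2 := mu_insert_le N (hPR y) hv
    by_cases h3 : v ∈ nb N (hat Q y)
    · by_cases h4 : mu N (insert v W) (P y) (hat Q y) = mu N W (P y) (hat Q y)
      · rw [if_pos h3, if_pos ⟨h3, h4⟩, h4]
        simp
      · rw [if_pos h3, if_neg (fun hh => h4 hh.2)]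
        omega
    · rw [if_neg h3, if_neg (fun hh => h3 hh.1)]
      omega
  have e2 : (K2.card : ℤ) ≤
      ∑ a, ((if v ∉ nb N (int N P a) ∧ a ∉ nb N (int N Q v) then (1 : ℤ) else 0) +
        (if v ∈ nb N (int N P a) then (1 : ℤ) else 0) -
        (mu N (insert v W) (int N P a) (int N (hat Q) a) -
          mu N W (int N P a) (int N (hat Q) a))) := by
    rw [card_eq_sum_ones, hK2, sum_filter]
    push_cast
    apply sum_le_sum
    intro a _
    have h1 := mu_insert_ge N (hI a) hv
    have h2 := mu_insert_le N (hI a) hv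
    by_cases h3 : v ∈ nb N (int N P a)
    · rw [if_neg (fun hh => hh.1.1 h3), if_neg (fun hh => hh.1 h3), if_pos h3]
      omega
    · by_cases h4 : a ∉ nb N (int N Q v)
      · by_cases h5 : mu N (insert v W) (int N P a) (int N (hat Q) a) =
            mu N W (int N P a) (int N (hat Q) a)
        · rw [if_pos ⟨⟨h3, h4⟩, h5⟩, if_pos ⟨h3, h4⟩, if_neg h3, h5]
          simp
        · rw [if_neg (fun hh => h5 hh.2), if_pos ⟨h3, h4⟩, if_neg h3]
          omega
      · have h5 : v ∉ nb N (int N (hat Q) a) := fun hh => h4 (incl hN h hh h3)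
        rw [mu_insert_eq_of_notMem N (hI a) hv h5, if_neg (fun hh => h4 hh.1.2),
          if_neg (fun hh => h4 hh.2), if_neg h3]
        simp
  have hKP : ∀ y ∈ K, v ∉ nb N (P y) := by
    intro y hy hh
    have h1 := mu_insert_of_mem N (hPR y) hv hh
    have h2 := (mem_filter.1 hy).2.2
    omega
  have e3 : K.card ≤ (nb N K \ nb N (int N Q v)).card := by
    have a1 : K ⊆ int N (hat P) v := by
      intro y hy
      refine mem_int.2 fun z hz => mem_hat.2 ?_
      right
      intro hzy
      exact hKP y hy (mem_nb.2 ⟨z, hzy, hz⟩)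
    have a2 : Disjoint K (int N Q v) := by
      rw [disjoint_left]
      intro y hy hyQ
      obtain ⟨z, hz, hvz⟩ := mem_nb.1 (mem_filter.1 hy).2.1
      have hyz : y ∈ Q z := mem_int.1 hyQ z hvz
      rcases mem_hat.1 hz with h1 | h1
      · subst h1
        exact hKP z hy (mem_nb.2 ⟨z, h.1 z (hN z), hvz⟩)
      · exact h1 hyz
    have a3 := int_crit N hcQ (subset_hat h.symm) v (int N Q v ∪ K) subset_union_left
      (union_subset (int_mono (subset_hat h.symm) v) a1)
    unfold c at a3
    rw [nb_union, card_union_of_disjoint a2.symm] at a3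
    have a4 : (nb N (int N Q v) ∪ nb N K).card =
        (nb N (int N Q v)).card + (nb N K \ nb N (int N Q v)).card := by
      rw [← union_sdiff_self_eq_union, card_union_of_disjoint disjoint_sdiff]
    rw [a4] at a3
    push_cast at a3
    omega
  have e4 : (nb N K \ nb N (int N Q v)) ⊆ K2 := by
    intro a ha
    rw [mem_sdiff] at ha
    obtain ⟨y, hy, hay⟩ := mem_nb.1 ha.1
    have b1 : int N P a ⊆ P y := fun x hx => mem_int.1 hx y hay
    have b2 : int N (hat Q) a ⊆ hat Q y := fun x hx => mem_int.1 hx y hay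
    rw [hK2, mem_filter]
    refine ⟨mem_univ _, ⟨fun hh => hKP y hy (nb_mono N b1 hh), ha.2⟩, ?_⟩
    exact mu_eq_mono N (hPR y) (hI a) b1 b2 hv (mem_filter.1 hy).2.2
  have e5 := card_le_card e4
  have e6 : (K.card : ℤ) ≤ (K2.card : ℤ) := by exact_mod_cast e3.trans e5
  linarith

/-- The main inequality for all `W`. -/
theorem main_ind (hN : ∀ x, x ∈ N x) (h : Feas N P Q)
    (hcQ : ∀ s S, Q s ⊆ S → S ⊆ hat P s → c N (Q s) ≤ c N S) (W : Finset V) :
    ∑ y, (((nb N (hat Q y) ∩ W).card : ℤ) -
        (mu N W (P y) (hat Q y) - mu N ∅ (P y) (hat Q y))) ≤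
      ∑ a, (((W.filter fun v => v ∉ nb N (int N P a) ∧ a ∉ nb N (int N Q v)).card : ℤ) +
        ((nb N (int N P a) ∩ W).card : ℤ) -
        (mu N W (int N P a) (int N (hat Q) a) - mu N ∅ (int N P a) (int N (hat Q) a))) := by
  induction W using Finset.induction_on with
  | empty => simp
  | insert v W hv ih =>
    have hs := step hN h hcQ hv
    have l : ∀ y, (((nb N (hat Q y) ∩ insert v W).card : ℤ) -
        (mu N (insert v W) (P y) (hat Q y) - mu N ∅ (P y) (hat Q y))) =
        (((nb N (hat Q y) ∩ W).card : ℤ) -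
        (mu N W (P y) (hat Q y) - mu N ∅ (P y) (hat Q y))) +
        ((if v ∈ nb N (hat Q y) then (1 : ℤ) else 0) -
        (mu N (insert v W) (P y) (hat Q y) - mu N W (P y) (hat Q y))) := by
      intro y
      by_cases h1 : v ∈ nb N (hat Q y)
      · rw [inter_insert_of_mem h1, card_insert_of_notMem (by simp [hv]), if_pos h1]
        push_cast
        ring
      · rw [inter_insert_of_notMem h1, if_neg h1]
        ring
    have r : ∀ a, ((((insert v W).filter fun v => v ∉ nb N (int N P a) ∧
        a ∉ nb N (int N Q v)).card : ℤ) + ((nb N (int N P a) ∩ insert v W).card : ℤ) -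
        (mu N (insert v W) (int N P a) (int N (hat Q) a) -
          mu N ∅ (int N P a) (int N (hat Q) a))) =
        (((W.filter fun v => v ∉ nb N (int N P a) ∧ a ∉ nb N (int N Q v)).card : ℤ) +
        ((nb N (int N P a) ∩ W).card : ℤ) -
        (mu N W (int N P a) (int N (hat Q) a) - mu N ∅ (int N P a) (int N (hat Q) a))) +
        ((if v ∉ nb N (int N P a) ∧ a ∉ nb N (int N Q v) then (1 : ℤ) else 0) +
        (if v ∈ nb N (int N P a) then (1 : ℤ) else 0) -
        (mu N (insert v W) (int N P a) (int N (hat Q) a) -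
          mu N W (int N P a) (int N (hat Q) a))) := by
      intro a
      by_cases h1 : v ∈ nb N (int N P a)
      · rw [inter_insert_of_mem h1, card_insert_of_notMem (by simp [hv]), if_pos h1,
          if_neg (fun hh => hh.1 h1), filter_insert, if_neg (fun hh => hh.1 h1)]
        push_cast
        ring
      · by_cases h2 : a ∈ nb N (int N Q v)
        · rw [inter_insert_of_notMem h1, if_neg h1, if_neg (fun hh => hh.2 h2), filter_insert,
            if_neg (fun hh => hh.2 h2)]
          ring
        · rw [inter_insert_of_notMem h1, if_neg h1, if_pos ⟨h1, h2⟩, filter_insert,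
            if_pos ⟨h1, h2⟩, card_insert_of_notMem (by simp [hv])]
          push_cast
          ring
    rw [sum_congr rfl fun y _ => l y, sum_congr rfl fun a _ => r a, sum_add_distrib,
      sum_add_distrib]
    linarith

end Vale.Agent.P038.H456
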